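import Vale.Agent.P181.RV.Defs

set_option autoImplicit false

/-!
# P181, RV, block NUMV: the final inequality
-/

namespace Vale.Agent.P181.RV.H516

theorem ch1 (a b X : ℕ) (ha : 1 ≤ a) (hX : 2 ≤ X) (hb : b ≤ X * a) :
    ((a + b).choose a : ℝ) ≤ Real.exp (a * (1 + Real.log 2 + Real.log X)) := by
  have haR : (1 : ℝ) ≤ a := by exact_mod_cast ha
  have hXR : (2 : ℝ) ≤ X := by exact_mod_cast hX
  have hbR : (b : ℝ) ≤ X * a := by exact_mod_cast hb
  have h1 : ((a + b).choose a : ℝ) ≤ ((a + b : ℕ) : ℝ) ^ a / (a.factorial : ℝ) :=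
    Nat.choose_le_pow_div a (a + b)
  have h2 : (a : ℝ) ^ a / (a.factorial : ℝ) ≤ Real.exp a :=
    Real.pow_div_factorial_le_exp _ (by positivity) a
  have h3 : ((a + b : ℕ) : ℝ) ≤ (2 * X) * a := by
    push_cast
    nlinarith
  have h4 : ((a + b : ℕ) : ℝ) ^ a / (a.factorial : ℝ) ≤
      (2 * X : ℝ) ^ a * ((a : ℝ) ^ a / (a.factorial : ℝ)) := by
    rw [← mul_div_assoc, ← mul_pow]
    exact div_le_div_of_nonneg_right (pow_le_pow_left₀ (by positivity) h3 a) (by positivity)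
  have h5 : (2 * X : ℝ) ^ a = Real.exp (a * (Real.log 2 + Real.log X)) := by
    rw [Real.exp_nat_mul, Real.exp_add, Real.exp_log (by norm_num), Real.exp_log (by linarith)]
  calc ((a + b).choose a : ℝ) ≤ (2 * X : ℝ) ^ a * ((a : ℝ) ^ a / (a.factorial : ℝ)) := h1.trans h4
    _ ≤ (2 * X : ℝ) ^ a * Real.exp a := mul_le_mul_of_nonneg_left h2 (by positivity)
    _ = Real.exp (a * (1 + Real.log 2 + Real.log X)) := by
        rw [h5, ← Real.exp_add]
        congr 1
        ring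

theorem ch2 (t u : ℕ) (W : ℝ) (hu : 1 ≤ u) (h1 : (t : ℝ) + u ≤ W) :
    ((t + u - 1).choose (u - 1) : ℝ) * (u.factorial : ℝ) ≤ W ^ u := by
  obtain ⟨k, rfl⟩ : ∃ k, u = k + 1 := ⟨u - 1, by omega⟩
  have e1 : t + (k + 1) - 1 = t + k := by omega
  have e2 : k + 1 - 1 = k := by omega
  rw [e1, e2]
  have h2 : ((t + k).choose k : ℝ) ≤ ((t + k : ℕ) : ℝ) ^ k / (k.factorial : ℝ) :=
    Nat.choose_le_pow_div k (t + k)
  have hk : (0 : ℝ) < (k.factorial : ℝ) := by exact_mod_cast Nat.factorial_pos k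
  have h3 : (((k + 1).factorial : ℕ) : ℝ) = (k + 1) * (k.factorial : ℝ) := by
    rw [Nat.factorial_succ]
    push_cast
    ring
  push_cast at h1
  have ht : (0 : ℝ) ≤ t := Nat.cast_nonneg t
  have hk0 : (0 : ℝ) ≤ k := Nat.cast_nonneg k
  calc ((t + k).choose k : ℝ) * (((k + 1).factorial : ℕ) : ℝ)
      ≤ (((t + k : ℕ) : ℝ) ^ k / (k.factorial : ℝ)) * ((k + 1) * (k.factorial : ℝ)) := by
        rw [h3]
        exact mul_le_mul_of_nonneg_right h2 (by positivity)
    _ = ((t + k : ℕ) : ℝ) ^ k * (k + 1) := by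
        field_simp
    _ ≤ W ^ k * W := by
        refine mul_le_mul (pow_le_pow_left₀ (by positivity) ?_ k) (by linarith) (by positivity)
          (by
            have : 0 ≤ W := by linarith
            positivity)
        push_cast
        linarith
    _ = W ^ (k + 1) := (pow_succ W k).symm

theorem key (Q A U M L x l2 : ℝ) (hQ : 1 ≤ Q) (hA : 120 * Q ≤ A) (hAU : (Q + 1) * A ≤ Q * U)
    (hM : 3 ≤ M) (hL : 100 * Q ≤ L) (hx0 : 0 ≤ x) (hx : 100 * Q * x ≤ L)
    (hl0 : 0 ≤ l2) (hl : l2 ≤ 7 / 10) :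
    A * (1 + l2 + x) + M * A * l2 + U * (l2 + x + 2 * L) + 2 * U * (x + L) ≤
      (M - 2) * (U - 2 - A) * (L - l2 - 2 * x) + 2 * (U - M) * (2 * L - l2 - x) := by
  have hQ0 : 0 < Q := by linarith
  have hA0 : 0 < A := by linarith
  have hAU' : A ≤ U := by
    have h1 : Q * A ≤ Q * U := by linarith
    exact le_of_mul_le_mul_left h1 hQ0
  have hU0 : 0 < U := by linarith
  have hL0 : 0 < L := by linarith
  obtain ⟨r, hr⟩ : ∃ r, r = U / Q := ⟨_, rfl⟩
  have hUr : U = Q * r := by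
    rw [hr]
    field_simp
  have hr120 : 120 ≤ r := by
    rw [hr, le_div_iff₀ hQ0]
    linarith
  have hr0 : 0 < r := by linarith
  -- the gap `U - 2 - A`
  have g1 : 29 / 60 * r ≤ U - 2 - A := by
    have h1 : Q * r ≤ (Q + 1) * (U - A) := by
      have e : (Q + 1) * (U - A) = Q * U + U - (Q + 1) * A := by ring
      rw [e]
      linarith
    have h2 : (Q + 1) * (U - A) ≤ (2 * Q) * (U - A) :=
      mul_le_mul_of_nonneg_right (by linarith) (by linarith)
    have h3 : Q * r ≤ Q * (2 * (U - A)) := by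
      have e : Q * (2 * (U - A)) = (2 * Q) * (U - A) := by ring
      rw [e]
      exact h1.trans h2
    have h4 : r ≤ 2 * (U - A) := le_of_mul_le_mul_left h3 hQ0
    linarith
  have g2 : 97 / 100 * L ≤ L - l2 - 2 * x := by
    have h1 : 100 * x * 1 ≤ 100 * x * Q := mul_le_mul_of_nonneg_left hQ (by positivity)
    have e : 100 * x * Q = 100 * Q * x := by ring
    rw [e] at h1
    linarith
  have f1 : 100 * U ≤ L * r := by
    rw [hUr, ← mul_assoc]
    exact mul_le_mul_of_nonneg_right hL hr0.le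
  have f2 : 100 * (x * U) ≤ L * r := by
    have e : 100 * (x * U) = 100 * Q * x * r := by
      rw [hUr]
      ring
    rw [e]
    exact mul_le_mul_of_nonneg_right hx hr0.le
  have f3 : 120 * L ≤ L * r := by
    rw [mul_comm 120 L]
    exact mul_le_mul_of_nonneg_left hr120 hL0.le
  have hN : 1 ≤ M - 2 := by linarith
  have hN0 : 0 < M - 2 := by linarith
  have g3 : (M - 2) * (29 / 60 * r) * (97 / 100 * L) ≤
      (M - 2) * (U - 2 - A) * (L - l2 - 2 * x) :=
    mul_le_mul (mul_le_mul_of_nonneg_left g1 hN0.le) g2 (by positivity)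
      (mul_nonneg hN0.le (by linarith [mul_pos (show (0 : ℝ) < 29 / 60 by norm_num) hr0]))
  have k1 : A * (1 + l2 + x) ≤ U * (17 / 10 + x) :=
    mul_le_mul hAU' (by linarith) (by positivity) hU0.le
  have k2 : M * A * l2 ≤ (3 * (M - 2)) * U * (7 / 10) :=
    mul_le_mul (mul_le_mul (by linarith) hAU' hA0.le (by linarith)) hl hl0 (by positivity)
  have k3 : M * L ≤ (3 * (M - 2)) * L := mul_le_mul_of_nonneg_right (by linarith) hL0.le
  have k4 : U * l2 ≤ U * (7 / 10) := mul_le_mul_of_nonneg_left hl hU0.le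
  have k5 : 0 ≤ M * l2 := mul_nonneg (by linarith) hl0
  have k6 : 0 ≤ M * x := mul_nonneg (by linarith) hx0
  have k7 : 1 * U ≤ (M - 2) * U := mul_le_mul_of_nonneg_right hN hU0.le
  have k8 : 1 * (x * U) ≤ (M - 2) * (x * U) :=
    mul_le_mul_of_nonneg_right hN (mul_nonneg hx0 hU0.le)
  have k9 : (M - 2) * (100 * U) ≤ (M - 2) * (L * r) := mul_le_mul_of_nonneg_left f1 hN0.le
  have k10 : (M - 2) * (100 * (x * U)) ≤ (M - 2) * (L * r) :=
    mul_le_mul_of_nonneg_left f2 hN0.le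
  have k11 : (M - 2) * (120 * L) ≤ (M - 2) * (L * r) := mul_le_mul_of_nonneg_left f3 hN0.le
  have k12 : 0 ≤ (M - 2) * (L * r) := mul_nonneg hN0.le (mul_nonneg hL0.le hr0.le)
  obtain ⟨p1, hp1⟩ : ∃ p, p = (M - 2) * (L * r) := ⟨_, rfl⟩
  obtain ⟨p2, hp2⟩ : ∃ p, p = (M - 2) * U := ⟨_, rfl⟩
  obtain ⟨p3, hp3⟩ : ∃ p, p = (M - 2) * (x * U) := ⟨_, rfl⟩
  obtain ⟨p4, hp4⟩ : ∃ p, p = (M - 2) * L := ⟨_, rfl⟩
  obtain ⟨p5, hp5⟩ : ∃ p, p = x * U := ⟨_, rfl⟩
  obtain ⟨p6, hp6⟩ : ∃ p, p = U * l2 := ⟨_, rfl⟩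
  obtain ⟨p7, hp7⟩ : ∃ p, p = U * L := ⟨_, rfl⟩
  obtain ⟨p8, hp8⟩ : ∃ p, p = M * L := ⟨_, rfl⟩
  obtain ⟨p9, hp9⟩ : ∃ p, p = M * A * l2 := ⟨_, rfl⟩
  have e1 : (M - 2) * (29 / 60 * r) * (97 / 100 * L) = 2813 / 6000 * p1 := by
    rw [hp1]
    ring
  have e2 : A * (1 + l2 + x) + M * A * l2 + U * (l2 + x + 2 * L) + 2 * U * (x + L) =
      A * (1 + l2 + x) + p9 + p6 + 3 * p5 + 4 * p7 := by
    rw [hp9, hp6, hp5, hp7]
    ring
  have e3 : 2 * (U - M) * (2 * L - l2 - x) =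
      4 * p7 - 4 * p8 - 2 * p6 + 2 * (M * l2) - 2 * p5 + 2 * (M * x) := by
    rw [hp7, hp8, hp6, hp5]
    ring
  have e4 : U * (17 / 10 + x) = 17 / 10 * U + p5 := by
    rw [hp5]
    ring
  have e5 : (3 * (M - 2)) * U * (7 / 10) = 21 / 10 * p2 := by
    rw [hp2]
    ring
  have e6 : (3 * (M - 2)) * L = 3 * p4 := by
    rw [hp4]
    ring
  have e7 : (M - 2) * (100 * U) = 100 * p2 := by
    rw [hp2]
    ring
  have e8 : (M - 2) * (100 * (x * U)) = 100 * p3 := by
    rw [hp3]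
    ring
  have e9 : (M - 2) * (120 * L) = 120 * p4 := by
    rw [hp4]
    ring
  rw [e1] at g3
  rw [e4] at k1
  rw [e5, ← hp9] at k2
  rw [e6, ← hp8] at k3
  rw [← hp6] at k4
  rw [one_mul, ← hp2] at k7
  rw [one_mul, ← hp3, ← hp5] at k8
  rw [e7, ← hp1] at k9
  rw [e8, ← hp1] at k10
  rw [e9, ← hp1] at k11
  rw [← hp1] at k12
  rw [e2, e3]
  linarith

/-- **[NUMV]** -/
theorem numV : NumV := by
  intro q hq
  refine ⟨3 ^ (100 * q), ?_⟩
  intro a b X m u t y ha0 hX hXa hab hbX hm hmX hau hub ht hy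
  have haq : 120 * q ≤ a := by
    have h1 : 1 + ((100 * q : ℕ) : ℤ) * 2 ≤ (1 + 2 : ℤ) ^ (100 * q) :=
      one_add_mul_le_pow (by norm_num) _
    have h2 : ((3 ^ (100 * q) : ℕ) : ℤ) ≤ a := by exact_mod_cast ha0
    have h3 : (1 + 2 : ℤ) ^ (100 * q) = ((3 ^ (100 * q) : ℕ) : ℤ) := by norm_num
    rw [h3] at h1
    push_cast at h1 h2
    omega
  have hau' : a ≤ u := by
    have h1 : q * a ≤ q * u := by
      have e : (q + 1) * a = q * a + a := by ring
      omega
    exact Nat.le_of_mul_le_mul_left h1 (by omega)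
  have hqR : (1 : ℝ) ≤ q := by exact_mod_cast hq
  have haqR : 120 * (q : ℝ) ≤ a := by exact_mod_cast haq
  have hauR : ((q : ℝ) + 1) * a ≤ q * u := by exact_mod_cast hau
  have hau'R : (a : ℝ) ≤ u := by exact_mod_cast hau'
  have haR : (120 : ℝ) ≤ a := by linarith
  have hXR : (2 : ℝ) ≤ X := by exact_mod_cast hX
  have hbXR : (b : ℝ) ≤ X * a := by exact_mod_cast hbX
  have hubR : (u : ℝ) ≤ b := by exact_mod_cast hub
  have hmR : (3 : ℝ) ≤ m := by exact_mod_cast hm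
  have htR : (t : ℝ) ≤ a * b := by exact_mod_cast ht
  have hyR : (a : ℝ) ^ 2 ≤ 2 * X * y := by exact_mod_cast hy
  have ha0' : (0 : ℝ) < a := by linarith
  have hX0 : (0 : ℝ) < X := by linarith
  have hu0 : (0 : ℝ) < u := by linarith
  have hmu : m ≤ u := by
    have h1 : X ^ 2 ≤ X ^ (100 * q) := Nat.pow_le_pow_right (by omega) (by omega)
    omega
  obtain ⟨L, hL⟩ : ∃ L, L = Real.log a := ⟨_, rfl⟩
  obtain ⟨x, hx⟩ : ∃ x, x = Real.log X := ⟨_, rfl⟩
  have hx0 : 0 ≤ x := by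
    rw [hx]
    exact Real.log_nonneg (by linarith)
  have hLx : 100 * q * x ≤ L := by
    have h1 : ((X : ℝ)) ^ (100 * q) ≤ a := by exact_mod_cast hXa
    have h := Real.log_le_log (by positivity) h1
    rw [Real.log_pow, ← hx, ← hL] at h
    push_cast at h
    exact h
  have hLq : 100 * q ≤ L := by
    have h1 : ((3 : ℝ)) ^ (100 * q) ≤ a := by exact_mod_cast ha0
    have h := Real.log_le_log (by positivity) h1
    rw [Real.log_pow, ← hL] at h
    push_cast at h
    have h3 : 1 ≤ Real.log 3 := by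
      rw [Real.le_log_iff_exp_le (by norm_num)]
      have := Real.exp_one_lt_d9
      linarith
    have h4 : 100 * (q : ℝ) * 1 ≤ 100 * q * Real.log 3 :=
      mul_le_mul_of_nonneg_left h3 (by positivity)
    linarith
  have hl2 : Real.log 2 ≤ 7 / 10 := by
    have := Real.log_two_lt_d9
    linarith
  have hl0 : 0 ≤ Real.log 2 := Real.log_nonneg (by norm_num)
  -- the factors
  have f1 : ((a + b).choose a : ℝ) ≤ Real.exp (a * (1 + Real.log 2 + x)) := by
    rw [hx]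
    exact ch1 a b X (by omega) hX hbX
  have f2 : (2 : ℝ) ^ (m * a) = Real.exp (m * a * Real.log 2) := by
    have e : (m * a * Real.log 2 : ℝ) = ((m * a : ℕ) : ℝ) * Real.log 2 := by push_cast; ring
    rw [e, Real.exp_nat_mul, Real.exp_log (by norm_num)]
  have hW : (2 * X * (a : ℝ) ^ 2) = Real.exp (Real.log 2 + x + 2 * L) := by
    rw [hx, hL, Real.exp_add, Real.exp_add, Real.exp_log (by norm_num), Real.exp_log hX0,
      two_mul (Real.log (a : ℝ)), Real.exp_add, Real.exp_log ha0']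
    ring
  have f3 : ((t + u - 1).choose (u - 1) : ℝ) * (u.factorial : ℝ) ≤
      Real.exp (u * (Real.log 2 + x + 2 * L)) := by
    have h1 : (t : ℝ) + u ≤ 2 * X * (a : ℝ) ^ 2 := by
      have h2 : (a : ℝ) * b ≤ a * (X * a) := mul_le_mul_of_nonneg_left hbXR ha0'.le
      have h3 : 1 * (X * (a : ℝ)) ≤ a * (X * a) :=
        mul_le_mul_of_nonneg_right (by linarith) (by positivity)
      have e : 2 * X * (a : ℝ) ^ 2 = a * (X * a) + a * (X * a) := by ring
      rw [e]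
      linarith
    have h2 := ch2 t u (2 * X * (a : ℝ) ^ 2) (by omega) h1
    rw [hW, ← Real.exp_nat_mul] at h2
    exact h2
  have f4 : (u.factorial : ℝ) ^ 2 ≤ Real.exp (2 * u * (x + L)) := by
    have h1 : (u.factorial : ℝ) ≤ (u : ℝ) ^ u := by exact_mod_cast Nat.factorial_le_pow u
    have h2 : (u : ℝ) ^ u ≤ (X * a : ℝ) ^ u :=
      pow_le_pow_left₀ hu0.le (by linarith) u
    have h3 : (X * a : ℝ) = Real.exp (x + L) := by
      rw [hx, hL, Real.exp_add, Real.exp_log hX0, Real.exp_log ha0']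
    rw [h3] at h2
    have h4 : (u.factorial : ℝ) ^ 2 ≤ (Real.exp (x + L) ^ u) ^ 2 :=
      pow_le_pow_left₀ (by positivity) (h1.trans h2) 2
    have e : (2 * u * (x + L) : ℝ) = ((u * 2 : ℕ) : ℝ) * (x + L) := by push_cast; ring
    rw [← pow_mul, ← Real.exp_nat_mul, ← e] at h4
    exact h4
  -- the right side
  have hy0 : (a : ℝ) ^ 2 / (2 * X) ≤ y := by
    rw [div_le_iff₀ (by positivity)]
    linarith
  have hy1 : (a : ℝ) ^ 2 / (2 * X) = Real.exp (2 * L - Real.log 2 - x) := by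
    rw [hx, hL, Real.exp_sub, Real.exp_sub, Real.exp_log (by norm_num), Real.exp_log hX0,
      two_mul (Real.log (a : ℝ)), Real.exp_add, Real.exp_log ha0', div_div]
    ring
  have hy2 : (a : ℝ) / (2 * X ^ 2) ≤ 1 + (y : ℝ) / u := by
    have h1 : (a : ℝ) / (2 * X ^ 2) ≤ (y : ℝ) / u := by
      rw [div_le_div_iff₀ (by positivity) hu0]
      have h2 : (a : ℝ) * u ≤ a * (X * a) := mul_le_mul_of_nonneg_left (by linarith) ha0'.le
      have h3 : X * (a : ℝ) ^ 2 ≤ X * (2 * X * y) := mul_le_mul_of_nonneg_left hyR hX0.le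
      have e1 : (a : ℝ) * (X * a) = X * (a : ℝ) ^ 2 := by ring
      have e2 : X * (2 * X * (y : ℝ)) = y * (2 * X ^ 2) := by ring
      linarith
    linarith
  have hy3 : (a : ℝ) / (2 * X ^ 2) = Real.exp (L - Real.log 2 - 2 * x) := by
    rw [hx, hL, Real.exp_sub, Real.exp_sub, Real.exp_log ha0',
      Real.exp_log (by norm_num : (0 : ℝ) < 2),
      two_mul (Real.log (X : ℝ)), Real.exp_add, Real.exp_log hX0, div_div]
    ring
  have hgap : a + 2 ≤ u := by
    have h1 : (q + 1) * a = q * a + a := by ring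
    have h2 : q * (a + 2) ≤ q * u := by
      have e : q * (a + 2) = q * a + 2 * q := by ring
      omega
    exact Nat.le_of_mul_le_mul_left h2 (by omega)
  have f5 : Real.exp ((m - 2) * (u - 2 - a) * (L - Real.log 2 - 2 * x)) ≤
      (1 + (y : ℝ) / u) ^ ((m - 2) * (u - 2 - a)) := by
    have e : (((m - 2) * (u - 2 - a) : ℕ) : ℝ) = ((m : ℝ) - 2) * (u - 2 - a) := by
      rw [Nat.cast_mul, Nat.cast_sub (by omega), Nat.cast_sub (by omega),
        Nat.cast_sub (by omega)]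
      push_cast
      ring
    rw [← e, Real.exp_nat_mul, ← hy3]
    exact pow_le_pow_left₀ (by positivity) hy2 _
  have f6 : Real.exp (2 * (u - m) * (2 * L - Real.log 2 - x)) ≤ (y : ℝ) ^ (2 * (u - m)) := by
    have e : ((2 * (u - m) : ℕ) : ℝ) = 2 * ((u : ℝ) - m) := by
      rw [Nat.cast_mul, Nat.cast_sub hmu]
      push_cast
      ring
    rw [← e, Real.exp_nat_mul, ← hy1]
    exact pow_le_pow_left₀ (by positivity) hy0 _
  have hkey := key q a u m L x (Real.log 2) hqR haqR hauR hmR hLq hx0 hLx hl0 hl2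
  calc ((a + b).choose a : ℝ) * 2 ^ (m * a) *
        (((t + u - 1).choose (u - 1) : ℝ) * (u.factorial : ℝ)) * (u.factorial : ℝ) ^ 2
      ≤ Real.exp (a * (1 + Real.log 2 + x)) * Real.exp (m * a * Real.log 2) *
        Real.exp (u * (Real.log 2 + x + 2 * L)) * Real.exp (2 * u * (x + L)) := by
        rw [f2]
        gcongr
    _ = Real.exp (a * (1 + Real.log 2 + x) + m * a * Real.log 2 +
        u * (Real.log 2 + x + 2 * L) + 2 * u * (x + L)) := by
        rw [Real.exp_add, Real.exp_add, Real.exp_add]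
    _ ≤ Real.exp ((m - 2) * (u - 2 - a) * (L - Real.log 2 - 2 * x) +
        2 * (u - m) * (2 * L - Real.log 2 - x)) := Real.exp_le_exp.2 hkey
    _ = Real.exp ((m - 2) * (u - 2 - a) * (L - Real.log 2 - 2 * x)) *
        Real.exp (2 * (u - m) * (2 * L - Real.log 2 - x)) := Real.exp_add _ _
    _ ≤ _ := mul_le_mul f5 f6 (Real.exp_pos _).le (by positivity)

end Vale.Agent.P181.RV.H516
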